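import Vale.Agent.Lib.P209.FS.Nest

/-!
# P209 (Siegel-Yao Conjecture A): all our explicit packing regions in one statement
-/

namespace Vale.Agent.Results.P209.AllResults

open Vale.Agent.P209

theorem result :
    (∀ (n k : ℕ) (r : Fin k → ℝ) (R : ℝ), 1 ≤ n → (∀ i, 0 < r i) → ∑ i, r i < R →
      Packs n k r R) ∧
    (∀ (n k : ℕ) (r : Fin k → ℝ) (R : ℝ), 3 ≤ k → k ≤ n → (∀ i, 0 < r i) → (∀ i, r i < R) →
      (∀ i j, i ≠ j → 2 * ((k : ℝ) - 1) * Real.sqrt (r i * r j) <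
        k * Real.sqrt ((R - r i) * (R - r j))) → Packs n k r R) ∧
    (∀ (n k m : ℕ) (ρ : Fin k → ℝ) (R : ℝ) (s : Fin k → Fin m → ℝ), 3 ≤ k → k ≤ n →
      (∀ i j, 0 < s i j) → (∀ i, 0 < ρ i) → (∀ i, ρ i < R) → (∀ i, ∑ j, s i j < ρ i) →
      (∀ i j, i ≠ j → 2 * ((k : ℝ) - 1) * Real.sqrt (ρ i * ρ j) <
        k * Real.sqrt ((R - ρ i) * (R - ρ j))) →
      Packs n (k * m) (fun x => s (finProdFinEquiv.symm x).1 (finProdFinEquiv.symm x).2) R) ∧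
    (∀ (n k : ℕ) (r : Fin k → ℝ) (R : ℝ) (p : Fin k → Cn (n + 1)), (∀ i, 0 < r i) →
      (∀ i, ‖p i‖ = 1) → (∀ i, r i < R * ‖p i 0‖ ^ 2) →
      (∀ i j, i ≠ j → R * ‖inner ℂ (p i) (p j)‖ + Real.sqrt (r i * r j) <
        Real.sqrt ((R - r i) * (R - r j))) → Packs n k r R) :=
  ⟨fun n k r R hn hr h => packs_of_two_ball n (two_ball n hn) k r hr R h,
   fun n k r R hk hkn hr hlt h => simplex_packing n k hk hkn r hr R hlt h,
   fun n k m ρ R s hk hkn hs hρ hlt hsum h => grouped_packing n k m hk hkn ρ R s hs hρ hlt hsum h,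
   fun n k r R p hr hp h0 hij => packs_of_config n k r hr R p hp h0 hij⟩

end Vale.Agent.Results.P209.AllResults
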