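import Vale.Agent.Lib.P209.Nest
import Vale.Agent.Lib.P209.FS.Main

/-!
# P209 (Siegel-Yao Conjecture A): clusters of balls, Fubini-Study balls and the sum condition
-/

namespace Vale.Agent.Results.P209.ClusterPackings

open Vale.Agent.P209

theorem result :
    -- (1) cluster theorem
    (∀ (n k m : ℕ) (r : Fin k → ℝ) (S : Fin m → ℝ) (g : Fin k → Fin m) (R : ℝ), 1 ≤ n →
      (∀ i, 0 < r i) → (∀ j, ∑ i with g i = j, r i < S j) → Packs n m S R → Packs n k r R) ∧
    -- (2) at most n clusters, explicit condition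
    (∀ (n k m : ℕ) (r : Fin k → ℝ) (S : Fin m → ℝ) (g : Fin k → Fin m) (R : ℝ), 3 ≤ m → m ≤ n →
      (∀ i, 0 < r i) → (∀ j, ∑ i with g i = j, r i < S j) → (∀ j, S j < R) →
      (∀ i j, i ≠ j → 2 * ((m : ℝ) - 1) * Real.sqrt (S i * S j) <
        m * Real.sqrt ((R - S i) * (R - S j))) → Packs n k r R) ∧
    -- (3) sum condition
    (∀ (n k : ℕ) (r : Fin k → ℝ) (R : ℝ), 1 ≤ n → (∀ i, 0 < r i) → ∑ i, r i < R →
      Packs n k r R) ∧
    -- (4) at most n balls, explicit condition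
    (∀ (n k : ℕ) (r : Fin k → ℝ) (R : ℝ), 3 ≤ k → k ≤ n → (∀ i, 0 < r i) → (∀ i, r i < R) →
      (∀ i j, i ≠ j → 2 * ((k : ℝ) - 1) * Real.sqrt (r i * r j) <
        k * Real.sqrt ((R - r i) * (R - r j))) → Packs n k r R) ∧
    -- (5) Fubini-Study criterion
    (∀ (n k : ℕ) (r : Fin k → ℝ) (R : ℝ) (p : Fin k → Cn (n + 1)), (∀ i, 0 < r i) →
      (∀ i, ‖p i‖ = 1) → (∀ i, r i < R * ‖p i 0‖ ^ 2) →
      (∀ i j, i ≠ j → R * ‖inner ℂ (p i) (p j)‖ + Real.sqrt (r i * r j) <
        Real.sqrt ((R - r i) * (R - r j))) → Packs n k r R) := by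
  refine ⟨fun n k m r S g R hn hr hS hP => packs_cluster n k m hn r hr S g R hS hP, ?_,
    fun n k r R hn hr h => packs_of_two_ball n (two_ball n hn) k r hr R h,
    fun n k r R hk hkn hr hlt h => simplex_packing n k hk hkn r hr R hlt h,
    fun n k r R p hr hp h0 hij => packs_of_config n k r hr R p hp h0 hij⟩
  intro n k m r S g R hm hmn hr hS hlt h
  have hSpos : ∀ j, 0 < S j := fun j =>
    lt_of_le_of_lt (Finset.sum_nonneg (fun i _ => (hr i).le)) (hS j)
  exact packs_cluster n k m (by omega) r hr S g R hS (simplex_packing n m hm hmn S hSpos R hlt h)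

end Vale.Agent.Results.P209.ClusterPackings
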