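import Vale.Agent.Lib.P209.FS.Main

/-!
# P209 (Siegel-Yao Conjecture A): packings by Fubini-Study metric balls with non-orthogonal centres
-/

namespace Vale.Agent.Results.P209.FubiniStudyBalls

open Vale.Agent.P209

theorem result :
    (∀ (n k : ℕ) (r : Fin k → ℝ) (R : ℝ), 3 ≤ k → k ≤ n → (∀ i, 0 < r i) → (∀ i, r i < R) →
      (∀ i j, i ≠ j → 2 * ((k : ℝ) - 1) * Real.sqrt (r i * r j) <
        k * Real.sqrt ((R - r i) * (R - r j))) → Packs n k r R) ∧
    (∀ (n k : ℕ) (r : Fin k → ℝ) (R : ℝ) (p : Fin k → Cn (n + 1)), (∀ i, 0 < r i) →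
      (∀ i, ‖p i‖ = 1) → (∀ i, r i < R * ‖p i 0‖ ^ 2) →
      (∀ i j, i ≠ j → R * ‖inner ℂ (p i) (p j)‖ + Real.sqrt (r i * r j) <
        Real.sqrt ((R - r i) * (R - r j))) → Packs n k r R) :=
  ⟨fun n k r R hk hkn hr hlt h => simplex_packing n k hk hkn r hr R hlt h,
   fun n k r R p hr hp h0 hij => packs_of_config n k r hr R p hp h0 hij⟩

end Vale.Agent.Results.P209.FubiniStudyBalls
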