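import Vale.Agent.Lib.P209.TwoBall
import Vale.Agent.Lib.P209.Compose

/-!
# P209 (Siegel-Yao Conjecture A): explicit symplectic packings when `∑ R_i < R`
-/

namespace Vale.Agent.Results.P209.SumCondition

open Vale.Agent.P209

theorem result (n k : ℕ) (hn : 1 ≤ n) (r : Fin k → ℝ) (hr : ∀ i, 0 < r i) (R : ℝ)
    (h : ∑ i, r i < R) : Packs n k r R :=
  packs_of_two_ball n (two_ball n hn) k r hr R h

end Vale.Agent.Results.P209.SumCondition
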